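import Vale.Agent.P145.FP.Defs

/-!
P145, sharp variance: positions of the sites in the plane.
-/

namespace Vale.Agent.P145.SV

open Vale.Agent.P145.FP

/-- The position of a site in the plane: the vertex `v` of `ℤ²` itself, and the midpoint
`f + (1/2, 1/2)` of the face with bottom-left corner `f`. -/
noncomputable def pos (x : Site) : ℝ × ℝ :=
  Sum.elim (fun v : ℤ × ℤ => ((v.1 : ℝ), (v.2 : ℝ)))
    (fun f : ℤ × ℤ => ((f.1 : ℝ) + 1 / 2, (f.2 : ℝ) + 1 / 2)) x

/-- The Euclidean distance of two sites. -/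
noncomputable def eD (x y : Site) : ℝ :=
  Real.sqrt (((pos x).1 - (pos y).1) ^ 2 + ((pos x).2 - (pos y).2) ^ 2)

end Vale.Agent.P145.SV
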